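import Vale.Agent.P231I69.Main

/-! The metric Blaschke conjecture, with the exponential map of the Levi-Civita connection. -/

set_option maxSynthPendingDepth 3

open Bundle Manifold Set
open scoped ContDiff Manifold ENNReal

namespace Vale.Agent.Results.P231.AAAIntrinsic

open Vale.Agent.P231Z Vale.Agent.P231Iso Vale.Agent.P231I

/-- Let `(M, g)` be a compact connected Riemannian manifold of dimension `n ≥ 1` and diameter `D`.
The Levi-Civita connection, the acceleration `D_t c'` of a smooth curve, the geodesics with given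
initial data and the exponential map exist and are unique, and `inj M ≤ D`. If `inj M = D`, then
`D > 0` and `M`, with its metric multiplied by a positive constant, is isometric to `Sⁿ`, `ℝPⁿ`,
`ℂPᵏ`, `ℍPᵏ` or the Cayley plane. -/
theorem result {E : Type*} [NormedAddCommGroup E] [NormedSpace ℝ E] [FiniteDimensional ℝ E]
    {M : Type*} [MetricSpace M] [ChartedSpace E M] [IsManifold 𝓘(ℝ, E) ∞ M]
    [RiemannianBundle fun x : M => Tan E x]
    [IsContMDiffRiemannianBundle 𝓘(ℝ, E) ∞ E fun x : M => Tan E x]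
    [IsRiemannianManifold 𝓘(ℝ, E) M] [CompactSpace M] [ConnectedSpace M]
    (hdim : 1 ≤ Module.finrank ℝ E) (D : ℝ) (hD : D = Metric.diam (univ : Set M)) :
    (∃ cov : Conn E M, IsLeviCivita cov) ∧ ∀ cov : Conn E M, IsLeviCivita cov →
      (∀ cov' : Conn E M, IsLeviCivita cov' → Agree cov' cov) ∧
      (∀ c : ℝ → M, SmoothCurve E c → ∀ t, ∃! w, IsAcc cov c t w) ∧
      (∀ (x : M) (v : Tan E x), ∃! c, IsGeod cov c ∧ Starts c x v) ∧
      (∃! e, IsExp cov e) ∧ ∀ e, IsExp cov e → inj e ≤ ENNReal.ofReal D ∧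
      (inj e = ENNReal.ofReal D → 0 < D ∧
        ((∃ Φ : M → EuclideanSpace ℝ (Fin (Module.finrank ℝ E + 1)),
          IsoOnto E (inner ℝ) (Metric.sphere 0 1) (Real.pi ^ 2 / D ^ 2) Φ ∧
            ∀ x y, dist x y = D / Real.pi * Real.arccos (inner ℝ (Φ x) (Φ y))) ∨
        IsoProj E M ℝ (Module.finrank ℝ E) D ∨
        (∃ n : ℕ, 2 * n = Module.finrank ℝ E ∧ IsoProj E M ℂ n D) ∨
        (∃ n : ℕ, 4 * n = Module.finrank ℝ E ∧ IsoProj E M (Quaternion ℝ) n D) ∨
        (Module.finrank ℝ E = 16 ∧ ∃ Φ : M → Alb,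
          IsoOnto E ipA {X | Ver X} (Real.pi ^ 2 / (2 * D ^ 2)) Φ ∧
            ∀ x y, dist x y = 2 * D / Real.pi * Real.arccos √(ipA (Φ x) (Φ y))))) := by
  subst hD
  refine ⟨exists_lc, fun cov hc => ⟨fun _ h' => agree hc h', fun c h t => acc_exu hc h t,
    geod_exu hc, exp_exu hc, fun e he' => ?_⟩⟩
  have he := isExp_old hc he'
  obtain ⟨x₀⟩ : Nonempty M := inferInstance
  have F := Vale.Agent.P234.facts_of_isExp he
  have h0 := Vale.Agent.P231.diam_pos he (N := Module.finrank ℝ E - 1) (by omega) x₀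
  refine ⟨P231W52.inj_le F hdim, fun h => ⟨h0, ?_⟩⟩
  have hinj := P231W52.injGeDiam_of h
  exact P231W52.conv ⟨F, hdim, h0, Vale.Agent.P231.injGE_of_injOn F h0 hinj, P231W52.hd_diam⟩
    (Fin.main_of he hinj hdim (C.volLe_sph e) (C.volLe_proj e) Asm.volLe_seven D.cls)

end Vale.Agent.Results.P231.AAAIntrinsic
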